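import Vale.Agent.P050.O.H15.CycCount

set_option linter.all false

/-!
Dense targets, optimal order: C3, from C1.
-/

open MeasureTheory Finset

namespace Vale.Agent.P050.Opt

open Vale.Agent.P050 Vale.Agent.P050.Dense

variable {V : Type*} [Fintype V] [DecidableEq V] {Ω : Type*} [MeasurableSpace Ω]
variable (H : SimpleGraph V) [DecidableRel H.Adj] (o : V → ℕ)

/-- C3: the number of shapes with a given shortest cycle length; `hg` is C1 (`gk_ge`) -/
theorem count_gk_of (ho : Function.Injective o)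
    (hg : ∀ {a : V} {L : List V} {B : Option (Option V)} {S : Finset V} {b : Bool},
      Shape H a L B S b → ((∃ c, B = some (some c)) ∨ S.Nonempty) →
      2 ≤ gk a L B S ∧ (FG a L B S).girth = 2 * gk a L B S ∧ 2 * gk a L B S ≤ L.length + 1)
    {D : ℕ} (hD : ∀ v, H.degree v ≤ D) (j k : ℕ) :
    (((Shs H univ j).filter fun q => ((∃ c, q.2.2.1 = some (some c)) ∨ q.2.2.2.1.Nonempty) ∧
      gk q.1 q.2.1 q.2.2.1 q.2.2.2.1 = k).card : ℝ) ≤
      ((j + 3) * 2 ^ (j + 2) : ℕ) * (4 * k * (Cyc H o k).card : ℕ) * (D : ℝ) ^ (j + 1 - 2 * k) := by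
  have h := H15.count_gk_of hD j k (N := 4 * k * (Cyc H o k).card)
    (fun hk A hA => H15.card_IsCyc_le ho hk A hA)
    (fun q hs hc => ⟨(hg hs hc).1, (hg hs hc).2.1⟩)
    ((Shs H univ j).filter fun q => ((∃ c, q.2.2.1 = some (some c)) ∨ q.2.2.2.1.Nonempty) ∧
      gk q.1 q.2.1 q.2.2.1 q.2.2.2.1 = k)
    (fun q hq => mem_filter.1 hq)
  rw [mul_assoc]
  exact_mod_cast h

end Vale.Agent.P050.Opt
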