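import Vale.Agent.P050.O.H15.Pat

set_option linter.all false

/-!
Dense targets, optimal order: C3 (up to the count of the cycles) and C4.
-/

open Finset

namespace Vale.Agent.P050.Opt

open Vale.Agent.P050 Vale.Agent.P050.Dense Vale.Agent.P050.Opt.H15
open Vale.Agent.P050.Dense.H15 (homsOn mem_homsOn card_homsOn_le)

variable {V : Type*} [Fintype V] [DecidableEq V]

namespace H15

theorem mem_Shs {H : SimpleGraph V} [DecidableRel H.Adj] {Λ : Finset V} {j : ℕ}
    {q : V × List V × Option (Option V) × Finset V × Bool} (h : q ∈ Shs H Λ j) :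
    q.1 ∈ Λ ∧ q.2.1.length = j ∧ Shape H q.1 q.2.1 q.2.2.1 q.2.2.2.1 q.2.2.2.2 := by
  classical
  simp only [Shs, mem_biUnion, mem_image, mem_filter, mem_univ, true_and, mem_sigma] at h
  obtain ⟨⟨a, L⟩, ⟨ha, hL⟩, ⟨B, S, b⟩, hs, rfl⟩ := h
  exact ⟨ha, Wk_length hL, hs⟩

/-- the homomorphisms of a pattern graph -/
noncomputable def ZP (H : SimpleGraph V) (j : ℕ) (π : Ptn j) : Finset (Fin (j + 1) → V) := by
  classical
  exact univ.filter fun z => ∀ i i', (PG j π).Adj i i' → H.Adj (z i) (z i')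

theorem mem_ZP {H : SimpleGraph V} {j : ℕ} {π : Ptn j} {z : Fin (j + 1) → V} :
    z ∈ ZP H j π ↔ ∀ i i', (PG j π).Adj i i' → H.Adj (z i) (z i') := by
  classical
  simp [ZP]

/-- the path inside every pattern graph -/
theorem PG_mono {j : ℕ} (π : Ptn j) {i i' : Fin (j + 1)}
    (h : (PG j (none, ∅, false)).Adj i i') : (PG j π).Adj i i' := by
  rw [PG, SimpleGraph.fromRel_adj] at h ⊢
  refine ⟨h.1, ?_⟩
  rcases h.2 with h | h
  · rcases h with h | ⟨-, h⟩ | ⟨h, -⟩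
    · exact Or.inl (Or.inl h)
    · simp at h
    · simp at h
  · rcases h with h | ⟨-, h⟩ | ⟨h, -⟩
    · exact Or.inr (Or.inl h)
    · simp at h
    · simp at h

theorem sum_ZP_le {H : SimpleGraph V} [DecidableRel H.Adj] {D : ℕ} (hD : ∀ v, H.degree v ≤ D)
    (j : ℕ) (π : Ptn j) (i₀ : Fin (j + 1)) (f : V → ℝ) (hf : ∀ v, 0 ≤ f v) :
    ∑ z ∈ ZP H j π, f (z i₀) ≤ (D : ℝ) ^ j * ∑ v, f v := by
  classical
  have h1 : ∑ z ∈ ZP H j π, f (z i₀) =
      ∑ v, ∑ z ∈ (ZP H j π).filter (fun z => z i₀ = v), f (z i₀) :=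
    (Finset.sum_fiberwise _ _ _).symm
  rw [h1, Finset.mul_sum]
  refine Finset.sum_le_sum fun v _ => ?_
  have h2 : ∑ z ∈ (ZP H j π).filter (fun z => z i₀ = v), f (z i₀) =
      (((ZP H j π).filter (fun z => z i₀ = v)).card : ℝ) * f v := by
    rw [← nsmul_eq_mul, ← Finset.sum_const]
    exact Finset.sum_congr rfl fun z hz => by rw [(mem_filter.1 hz).2]
  rw [h2]
  refine mul_le_mul_of_nonneg_right ?_ (hf v)
  have h3 : (ZP H j π).filter (fun z => z i₀ = v) ⊆
      homsOn H (PG j π) {i₀} (fun _ => v) := by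
    intro z hz
    obtain ⟨hz1, hz2⟩ := mem_filter.1 hz
    rw [mem_homsOn]
    refine ⟨mem_ZP.1 hz1, ?_⟩
    intro i hi
    rw [mem_singleton.1 hi, hz2]
  have h4 := card_homsOn_le H hD (PG j π) (Fintype.card (Fin (j + 1)) - ({i₀} : Finset _).card)
    {i₀} (fun _ => v) rfl (fun i => ⟨i₀, mem_singleton_self _, (PG_connected j π).preconnected i₀ i⟩)
  rw [Fintype.card_fin, card_singleton, Nat.add_sub_cancel] at h4
  exact_mod_cast (card_le_card h3).trans h4

/-- sums over shapes by positions -/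
theorem sum_Shs_le {H : SimpleGraph V} [DecidableRel H.Adj] {D : ℕ} (hD : ∀ v, H.degree v ≤ D)
    (j : ℕ) (i₀ : Fin (j + 1)) (f : V → ℝ) (hf : ∀ v, 0 ≤ f v) :
    ∑ q ∈ Shs H univ j, f (pz q.1 q.2.1 j i₀) ≤
      ((j + 3) * 2 ^ (j + 2) : ℕ) * (D : ℝ) ^ j * ∑ v, f v := by
  classical
  have h1 : ∑ q ∈ Shs H univ j, f (pz q.1 q.2.1 j i₀) =
      ∑ p ∈ (Shs H univ j).image (fun q => (ptn j q, pz q.1 q.2.1 j)), f (p.2 i₀) := by
    rw [Finset.sum_image]
    intro q hq q' hq' h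
    obtain ⟨-, h2, h3⟩ := mem_Shs (mem_coe.1 hq)
    obtain ⟨-, h4, h5⟩ := mem_Shs (mem_coe.1 hq')
    exact shape_inj h2 h3 h4 h5 (congrArg Prod.fst h) (congrArg Prod.snd h)
  have h2 : (Shs H univ j).image (fun q => (ptn j q, pz q.1 q.2.1 j)) ⊆
      (univ : Finset (Ptn j)) ×ˢ ZP H j (none, ∅, false) := by
    intro p hp
    obtain ⟨q, hq, rfl⟩ := mem_image.1 hp
    obtain ⟨-, h2, h3⟩ := mem_Shs hq
    rw [mem_product]
    refine ⟨mem_univ _, ?_⟩
    rw [mem_ZP]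
    intro i i' hi
    exact PG_hom h2 h3 (PG_mono _ hi)
  calc ∑ q ∈ Shs H univ j, f (pz q.1 q.2.1 j i₀)
      = ∑ p ∈ (Shs H univ j).image (fun q => (ptn j q, pz q.1 q.2.1 j)), f (p.2 i₀) := h1
    _ ≤ ∑ p ∈ (univ : Finset (Ptn j)) ×ˢ ZP H j (none, ∅, false), f (p.2 i₀) :=
        Finset.sum_le_sum_of_subset_of_nonneg h2 fun p _ _ => hf _
    _ = ∑ _π : Ptn j, ∑ z ∈ ZP H j (none, ∅, false), f (z i₀) := by
        rw [Finset.sum_product]
    _ = (Fintype.card (Ptn j) : ℝ) * ∑ z ∈ ZP H j (none, ∅, false), f (z i₀) := by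
        rw [Finset.sum_const, nsmul_eq_mul, Finset.card_univ]
    _ ≤ (Fintype.card (Ptn j) : ℝ) * ((D : ℝ) ^ j * ∑ v, f v) :=
        mul_le_mul_of_nonneg_left (sum_ZP_le hD j _ i₀ f hf) (Nat.cast_nonneg _)
    _ = ((j + 3) * 2 ^ (j + 2) : ℕ) * (D : ℝ) ^ j * ∑ v, f v := by
        rw [card_Ptn, mul_assoc]

end H15

/-- C4: sums over all shapes of a function of the first or of the last vertex -/
theorem count_rr (H : SimpleGraph V) [DecidableRel H.Adj] {D : ℕ} (hD : ∀ v, H.degree v ≤ D)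
    (j : ℕ) (f : V → ℝ) (hf : ∀ v, 0 ≤ f v) :
    (∑ q ∈ Shs H univ j, f q.1 ≤ ((j + 3) * 2 ^ (j + 2) : ℕ) * (D : ℝ) ^ j * ∑ v, f v) ∧
    ∑ q ∈ Shs H univ j, f (hd q.1 q.2.1) ≤
      ((j + 3) * 2 ^ (j + 2) : ℕ) * (D : ℝ) ^ j * ∑ v, f v := by
  constructor
  · have h := sum_Shs_le hD j (Fin.last j) f hf
    refine le_trans (le_of_eq ?_) h
    refine Finset.sum_congr rfl fun q hq => ?_
    rw [pz_last (mem_Shs hq).2.1]
  · have h := sum_Shs_le hD j 0 f hf
    refine le_trans (le_of_eq ?_) h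
    refine Finset.sum_congr rfl fun q hq => ?_
    rw [pz_zero (mem_Shs hq).2.1]

namespace H15

/-- injective closed walks as functions -/
def IsCyc {W : Type*} (G : SimpleGraph W) (k : ℕ) (y : Fin (2 * k) → W) : Prop :=
  Function.Injective y ∧ ∀ i i' : Fin (2 * k), ((i' : ℕ) = i + 1 ∨ ((i : ℕ) + 1 = 2 * k ∧ (i' : ℕ) = 0)) →
    G.Adj (y i) (y i')

/-- a cycle of a graph as a function -/
theorem isCyc_of_isCycle {W : Type*} {G : SimpleGraph W} {k : ℕ} {v : W} {w : G.Walk v v}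
    (hw : w.IsCycle) (hl : w.length = 2 * k) :
    IsCyc G k (fun i => w.getVert i) := by
  have h3 := hw.three_le_length
  refine ⟨?_, ?_⟩
  · intro i i' h
    apply Fin.ext
    apply hw.getVert_injOn' (by rw [Set.mem_setOf_eq]; have := i.2; omega)
      (by rw [Set.mem_setOf_eq]; have := i'.2; omega) h
  · intro i i' h
    have hi : (i : ℕ) < w.length := by rw [hl]; exact i.2
    have := w.adj_getVert_succ hi
    rcases h with h | ⟨h1, h2⟩
    · simp only [h]
      exact this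
    · simp only [h2, SimpleGraph.Walk.getVert_zero]
      have e : w.getVert ((i : ℕ) + 1) = v := by
        have e1 : (i : ℕ) + 1 = w.length := by omega
        rw [e1, SimpleGraph.Walk.getVert_length]
      rw [e] at this
      exact this

/-- the pattern graph of a shape whose shortest cycle has length `2 k` contains such a cycle -/
theorem exists_cyc {H : SimpleGraph V} [DecidableRel H.Adj] {j k : ℕ} (hk : 1 ≤ k)
    {q : V × List V × Option (Option V) × Finset V × Bool}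
    (hL : q.2.1.length = j) (hs : Shape H q.1 q.2.1 q.2.2.1 q.2.2.2.1 q.2.2.2.2)
    (hg : (FG q.1 q.2.1 q.2.2.1 q.2.2.2.1).girth = 2 * k) :
    ∃ γ : Fin (2 * k) → Fin (j + 1), IsCyc (PG j (ptn j q)) k γ := by
  have hac : ¬ (FG q.1 q.2.1 q.2.2.1 q.2.2.2.1).IsAcyclic := by
    rw [← SimpleGraph.girth_eq_zero, hg]
    omega
  obtain ⟨v, w, hw, hwl⟩ := SimpleGraph.exists_girth_eq_length.2 hac
  have hc := isCyc_of_isCycle (k := k) hw (by rw [← hwl, hg])
  have hmem : ∀ i : Fin (2 * k), w.getVert i ∈ q.2.1 ++ [q.1] := by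
    intro i
    have hi : (i : ℕ) < w.length := by rw [← hwl, hg]; exact i.2
    exact (FG_to_PG hL hs (w.adj_getVert_succ hi)).1
  refine ⟨fun i => ix q.1 q.2.1 j (w.getVert i), ?_, ?_⟩
  · intro i i' h
    apply hc.1
    simp only at h ⊢
    rw [← pz_ix hL (hmem i), ← pz_ix hL (hmem i'), h]
  · intro i i' h
    exact (FG_to_PG hL hs (hc.2 i i' h)).2.2

/-- the homomorphisms of a pattern graph with a cycle -/
theorem card_ZP_le {H : SimpleGraph V} [DecidableRel H.Adj] {D : ℕ} (hD : ∀ v, H.degree v ≤ D)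
    {j k : ℕ} {π : Ptn j} {γ : Fin (2 * k) → Fin (j + 1)} (hk : 1 ≤ k)
    (hγ : IsCyc (PG j π) k γ) {N : ℕ}
    (hN : ∀ A : Finset (Fin (2 * k) → V), (∀ y ∈ A, IsCyc H k y) → A.card ≤ N)
    (Z : Finset (Fin (j + 1) → V)) (hZ : ∀ z ∈ Z, Function.Injective z ∧ z ∈ ZP H j π) :
    Z.card ≤ N * D ^ (j + 1 - 2 * k) := by
  classical
  have h1 : Z ⊆ (Z.image (fun z => z ∘ γ)).biUnion
      (fun y => homsOn H (PG j π) (univ.image γ)
        (fun i => if h : ∃ t, γ t = i then y h.choose else y ⟨0, by omega⟩)) := by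
    intro z hz
    rw [mem_biUnion]
    refine ⟨z ∘ γ, mem_image_of_mem _ hz, ?_⟩
    rw [mem_homsOn]
    refine ⟨mem_ZP.1 (hZ z hz).2, ?_⟩
    intro i hi
    obtain ⟨t, -, rfl⟩ := mem_image.1 hi
    have hex : ∃ t', γ t' = γ t := ⟨t, rfl⟩
    rw [dif_pos hex]
    show z (γ t) = z (γ hex.choose)
    rw [hex.choose_spec]
  have hT : (univ.image γ : Finset (Fin (j + 1))).card = 2 * k := by
    rw [card_image_of_injective _ hγ.1, card_univ, Fintype.card_fin]
  have h2 : ∀ f : Fin (j + 1) → V,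
      (homsOn H (PG j π) (univ.image γ) f).card ≤ D ^ (j + 1 - 2 * k) := by
    intro f
    have h4 := card_homsOn_le H hD (PG j π)
      (Fintype.card (Fin (j + 1)) - (univ.image γ : Finset (Fin (j + 1))).card)
      (univ.image γ) f rfl (fun i => ⟨γ ⟨0, by omega⟩, mem_image_of_mem _ (mem_univ _),
        (PG_connected j π).preconnected _ i⟩)
    rwa [Fintype.card_fin, hT] at h4
  have h3 : (Z.image (fun z => z ∘ γ)).card ≤ N := by
    apply hN
    intro y hy
    obtain ⟨z, hz, rfl⟩ := mem_image.1 hy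
    refine ⟨(hZ z hz).1.comp hγ.1, ?_⟩
    intro i i' h
    exact mem_ZP.1 (hZ z hz).2 _ _ (hγ.2 i i' h)
  calc Z.card ≤ _ := card_le_card h1
    _ ≤ ∑ y ∈ Z.image (fun z => z ∘ γ), (homsOn H (PG j π) (univ.image γ)
        (fun i => if h : ∃ t, γ t = i then y h.choose else y ⟨0, by omega⟩)).card :=
        card_biUnion_le
    _ ≤ ∑ _y ∈ Z.image (fun z => z ∘ γ), D ^ (j + 1 - 2 * k) :=
        sum_le_sum fun y _ => h2 _
    _ = (Z.image (fun z => z ∘ γ)).card * D ^ (j + 1 - 2 * k) := by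
        rw [sum_const, smul_eq_mul]
    _ ≤ N * D ^ (j + 1 - 2 * k) := Nat.mul_le_mul_right _ h3

/-- C3 up to C1 and the count of the cycles -/
theorem count_gk_of {H : SimpleGraph V} [DecidableRel H.Adj] {D : ℕ}
    (hD : ∀ v, H.degree v ≤ D) (j k : ℕ) {N : ℕ}
    (hN : 2 ≤ k → ∀ A : Finset (Fin (2 * k) → V), (∀ y ∈ A, IsCyc H k y) → A.card ≤ N)
    (hg : ∀ q : V × List V × Option (Option V) × Finset V × Bool,
      Shape H q.1 q.2.1 q.2.2.1 q.2.2.2.1 q.2.2.2.2 →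
      ((∃ c, q.2.2.1 = some (some c)) ∨ q.2.2.2.1.Nonempty) →
      2 ≤ gk q.1 q.2.1 q.2.2.1 q.2.2.2.1 ∧
        (FG q.1 q.2.1 q.2.2.1 q.2.2.2.1).girth = 2 * gk q.1 q.2.1 q.2.2.1 q.2.2.2.1)
    (A : Finset (V × List V × Option (Option V) × Finset V × Bool))
    (hA : ∀ q ∈ A, q ∈ Shs H univ j ∧
      (((∃ c, q.2.2.1 = some (some c)) ∨ q.2.2.2.1.Nonempty) ∧
        gk q.1 q.2.1 q.2.2.1 q.2.2.2.1 = k)) :
    A.card ≤ ((j + 3) * 2 ^ (j + 2)) * (N * D ^ (j + 1 - 2 * k)) := by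
  classical
  have h1 : A.card = ∑ π : Ptn j, (A.filter (fun q => ptn j q = π)).card :=
    Finset.card_eq_sum_card_fiberwise (fun q _ => mem_univ (ptn j q))
  rw [h1]
  calc ∑ π : Ptn j, (A.filter (fun q => ptn j q = π)).card
      ≤ ∑ _π : Ptn j, N * D ^ (j + 1 - 2 * k) := by
        refine Finset.sum_le_sum fun π _ => ?_
        rcases (A.filter (fun q => ptn j q = π)).eq_empty_or_nonempty with h0 | ⟨q₀, hq₀⟩
        · rw [h0, card_empty]
          exact Nat.zero_le _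
        · obtain ⟨hq1, hq2⟩ := mem_filter.1 hq₀
          obtain ⟨hq3, hq4, hq5⟩ := hA q₀ hq1
          obtain ⟨-, hL, hs⟩ := mem_Shs hq3
          obtain ⟨hg1, hg2⟩ := hg q₀ hs hq4
          rw [hq5] at hg1 hg2
          obtain ⟨γ, hγ⟩ := exists_cyc (by omega) hL hs hg2
          rw [hq2] at hγ
          have h2 : (A.filter (fun q => ptn j q = π)).card =
              ((A.filter (fun q => ptn j q = π)).image (fun q => pz q.1 q.2.1 j)).card := by
            rw [card_image_of_injOn]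
            intro q hq q' hq' h
            obtain ⟨h3, h4⟩ := mem_filter.1 (mem_coe.1 hq)
            obtain ⟨h5, h6⟩ := mem_filter.1 (mem_coe.1 hq')
            obtain ⟨-, h7, h8⟩ := mem_Shs (hA q h3).1
            obtain ⟨-, h9, h10⟩ := mem_Shs (hA q' h5).1
            exact shape_inj h7 h8 h9 h10 (by rw [h4, h6]) h
          rw [h2]
          refine card_ZP_le hD (by omega) hγ (hN hg1) _ ?_
          intro z hz
          obtain ⟨q, hq, rfl⟩ := mem_image.1 hz
          obtain ⟨h3, h4⟩ := mem_filter.1 hq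
          obtain ⟨-, h7, h8⟩ := mem_Shs (hA q h3).1
          refine ⟨pz_inj h7 h8.nd, ?_⟩
          rw [mem_ZP]
          intro i i' hi
          rw [← h4] at hi
          exact PG_hom h7 h8 hi
    _ = ((j + 3) * 2 ^ (j + 2)) * (N * D ^ (j + 1 - 2 * k)) := by
        rw [Finset.sum_const, Finset.card_univ, card_Ptn, smul_eq_mul]

end H15

end Vale.Agent.P050.Opt
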