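import Vale.Agent.P050.O.H15.Count

set_option linter.all false

/-!
Dense targets, optimal order: the number of the injective closed walks of length `2 k` is at most
`4 k` times the number of the canonical cycles.
-/

open Finset

namespace Vale.Agent.P050.Opt.H15

open Vale.Agent.P050 Vale.Agent.P050.Dense Vale.Agent.P050.Opt

variable {V : Type*} [Fintype V] [DecidableEq V]

/-- the list `g (m + 1), …, g 2` -/
def Lm (g : ℕ → V) : ℕ → List V
  | 0 => []
  | m + 1 => g (m + 2) :: Lm g m

theorem hd_Lm (g : ℕ → V) (m : ℕ) : hd (g 1) (Lm g m) = g (m + 1) := by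
  cases m with
  | zero => rfl
  | succ m => rfl

theorem mem_vs_Lm {g : ℕ → V} {m : ℕ} {x : V} (h : x ∈ vs (g 1) (Lm g m)) :
    ∃ n, 1 ≤ n ∧ n ≤ m + 1 ∧ x = g n := by
  induction m with
  | zero =>
    simp only [vs, Lm, List.toFinset_nil, mem_insert, notMem_empty, or_false] at h
    exact ⟨1, le_rfl, le_rfl, h⟩
  | succ m ih =>
    simp only [vs, Lm, List.toFinset_cons, mem_insert] at h
    rcases h with h | h | h
    · exact ⟨1, le_rfl, by omega, h⟩
    · exact ⟨m + 2, by omega, le_rfl, h⟩
    · obtain ⟨n, h1, h2, h3⟩ := ih (by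
        simp only [vs, mem_insert]
        exact Or.inr h)
      exact ⟨n, h1, by omega, h3⟩

theorem Lm_mem_Wk {H : SimpleGraph V} [DecidableRel H.Adj] {g : ℕ → V} {Λ : Finset V} {N : ℕ}
    (hinj : ∀ m n, m < N → n < N → g m = g n → m = n)
    (hadj : ∀ n, n + 1 < N → H.Adj (g n) (g (n + 1)))
    (hΛ : ∀ n, 1 ≤ n → n < N → g n ∈ Λ) :
    ∀ m, m + 1 < N → Lm g m ∈ Wk H (g 1) Λ m := by
  intro m
  induction m with
  | zero => intro _; simp [Wk, Lm]
  | succ m ih =>
    intro hm
    simp only [Wk, mem_biUnion, mem_image, mem_filter, mem_sdiff]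
    refine ⟨Lm g m, ih (by omega), g (m + 2), ⟨⟨hΛ _ (by omega) hm, ?_⟩, ?_⟩, rfl⟩
    · intro h
      obtain ⟨n, h1, h2, h3⟩ := mem_vs_Lm h
      have := hinj _ _ hm (by omega) h3
      omega
    · rw [hd_Lm]
      exact hadj (m + 1) hm

theorem range_Lm (g : ℕ → V) (m : ℕ) :
    g 0 :: g 1 :: (Lm g m).reverse = (List.range (m + 2)).map g := by
  induction m with
  | zero => rfl
  | succ m ih =>
    rw [List.range_succ, List.map_append, ← ih]
    simp [Lm]

/-- the function of a canonical cycle, rotated by `t` and reflected -/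
def Fc (k : ℕ) (p : Fin (2 * k) × Bool × (V × V × List V)) (i : Fin (2 * k)) : V :=
  (p.2.2.1 :: p.2.2.2.1 :: p.2.2.2.2.reverse).getD
    (if p.2.1 then ((i : ℕ) + 2 * k - p.1) % (2 * k) else ((p.1 : ℕ) + 2 * k - i) % (2 * k))
    p.2.2.1

theorem Fc_eq {k : ℕ} (hk : 2 ≤ k) (t : Fin (2 * k)) (b : Bool) (g : ℕ → V) (i : Fin (2 * k)) :
    Fc k (t, b, (g 0, g 1, Lm g (2 * k - 2))) i =
      g (if b then ((i : ℕ) + 2 * k - t) % (2 * k) else ((t : ℕ) + 2 * k - i) % (2 * k)) := by
  have h1 : ∀ n, n < 2 * k → (g 0 :: g 1 :: (Lm g (2 * k - 2)).reverse).getD n (g 0) = g n := by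
    intro n hn
    rw [range_Lm]
    have h2 : 2 * k - 2 + 2 = 2 * k := by omega
    rw [h2, List.getD_eq_getElem _ _ (by simpa using hn)]
    simp
  unfold Fc
  simp only
  apply h1
  split
  · exact Nat.mod_lt _ (by omega)
  · exact Nat.mod_lt _ (by omega)

theorem mem_Cyc_Lm {H : SimpleGraph V} [DecidableRel H.Adj] {o : V → ℕ} {k : ℕ} (hk : 2 ≤ k)
    {g : ℕ → V} (hinj : ∀ m n, m < 2 * k → n < 2 * k → g m = g n → m = n)
    (hadj : ∀ n, n + 1 < 2 * k → H.Adj (g n) (g (n + 1))) (hcl : H.Adj (g 0) (g (2 * k - 1)))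
    (hmax : ∀ n, 1 ≤ n → n < 2 * k → o (g n) < o (g 0)) (hc : o (g (2 * k - 1)) < o (g 1)) :
    (g 0, g 1, Lm g (2 * k - 2)) ∈ Cyc H o k := by
  classical
  simp only [Cyc, mem_biUnion, mem_image, mem_filter, mem_univ, true_and]
  have e : 2 * k - 2 + 1 = 2 * k - 1 := by omega
  refine ⟨g 0, g 1, ⟨hadj 0 (by omega), hmax 1 le_rfl (by omega)⟩, Lm g (2 * k - 2),
    ⟨?_, ?_, ?_⟩, rfl⟩
  · exact Lm_mem_Wk hinj hadj (fun n h1 h2 => mem_filter.2 ⟨mem_univ _, hmax n h1 h2⟩) _ (by omega)
  · rw [hd_Lm, e]
    exact hcl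
  · rw [hd_Lm, e]
    exact hc

/-- the number of closed injective walks -/
theorem card_IsCyc_le {H : SimpleGraph V} [DecidableRel H.Adj] {o : V → ℕ}
    (ho : Function.Injective o) {k : ℕ} (hk : 2 ≤ k) (A : Finset (Fin (2 * k) → V))
    (hA : ∀ y ∈ A, IsCyc H k y) : A.card ≤ 4 * k * (Cyc H o k).card := by
  classical
  have hk0 : 0 < 2 * k := by omega
  have hsub : A ⊆ ((univ : Finset (Fin (2 * k))) ×ˢ (univ : Finset Bool) ×ˢ Cyc H o k).image
      (Fc k) := by
    intro y hy
    obtain ⟨hinj, hadj⟩ := hA y hy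
    -- the periodic extension
    set Y : ℕ → V := fun n => y ⟨n % (2 * k), Nat.mod_lt _ hk0⟩ with hY
    have hYi : ∀ m n, Y m = Y n → m % (2 * k) = n % (2 * k) := by
      intro m n h
      have := hinj h
      simpa using congrArg Fin.val this
    have hYp : ∀ m n, m % (2 * k) = n % (2 * k) → Y m = Y n := by
      intro m n h
      simp only [hY]
      congr 1
      exact Fin.ext h
    have hYa : ∀ n, H.Adj (Y n) (Y (n + 1)) := by
      intro n
      apply hadj
      have h1 : n % (2 * k) < 2 * k := Nat.mod_lt _ hk0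
      by_cases h2 : n % (2 * k) + 1 = 2 * k
      · right
        refine ⟨h2, ?_⟩
        show (n + 1) % (2 * k) = 0
        rw [Nat.add_mod, Nat.mod_eq_of_lt (show 1 < 2 * k by omega), h2, Nat.mod_self]
      · left
        show (n + 1) % (2 * k) = n % (2 * k) + 1
        rw [Nat.add_mod, Nat.mod_eq_of_lt (show 1 < 2 * k by omega),
          Nat.mod_eq_of_lt (show n % (2 * k) + 1 < 2 * k by omega)]
    -- the maximum
    obtain ⟨t, -, ht⟩ := Finset.exists_max_image (univ : Finset (Fin (2 * k))) (fun i => o (y i))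
      ⟨⟨0, hk0⟩, mem_univ _⟩
    have hYt : Y t = y t := by
      simp only [hY]
      congr 1
      exact Fin.ext (Nat.mod_eq_of_lt t.2)
    have hmax : ∀ n, n % (2 * k) ≠ t → o (Y n) < o (Y t) := by
      intro n hn
      rw [hYt]
      refine lt_of_le_of_ne (ht _ (mem_univ _)) ?_
      intro h
      have h1 := hinj (ho h)
      exact hn (by rw [← h1])
    have htlt := t.2
    rw [mem_image]
    rcases lt_trichotomy (o (Y (t + (2 * k - 1)))) (o (Y (t + 1))) with hlt | heq | hgt
    · -- rotation
      set g : ℕ → V := fun n => Y (t + n) with hg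
      refine ⟨(t, true, (g 0, g 1, Lm g (2 * k - 2))), ?_, ?_⟩
      · rw [mem_product, mem_product]
        refine ⟨mem_univ _, mem_univ _, ?_⟩
        apply mem_Cyc_Lm hk
        · intro m n hm hn h
          have h1 := hYi _ _ h
          have h2 : m % (2 * k) = n % (2 * k) := by
            have := Nat.ModEq.add_left_cancel' (n := 2 * k) (t : ℕ) h1
            exact this
          rwa [Nat.mod_eq_of_lt hm, Nat.mod_eq_of_lt hn] at h2
        · intro n _
          exact hYa _
        · have h1 := (hYa (t + (2 * k - 1))).symm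
          have h2 : Y (t + (2 * k - 1) + 1) = g 0 := by
            apply hYp
            have : (t : ℕ) + (2 * k - 1) + 1 = t + 0 + 2 * k := by omega
            rw [this, Nat.add_mod_right]
          rw [h2] at h1
          exact h1
        · intro n h1 h2
          apply hmax
          intro h
          have h3 : ((t : ℕ) + n) % (2 * k) = (t : ℕ) % (2 * k) := by
            rw [h, Nat.mod_eq_of_lt htlt]
          have h4 : n % (2 * k) = 0 % (2 * k) :=
            Nat.ModEq.add_left_cancel' (n := 2 * k) (t : ℕ) (by simpa [Nat.ModEq] using h3)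
          rw [Nat.mod_eq_of_lt h2, Nat.zero_mod] at h4
          omega
        · exact hlt
      · funext i
        rw [Fc_eq hk]
        simp only [if_true, hg]
        have hi := i.2
        have h1 : Y (t + ((i : ℕ) + 2 * k - t) % (2 * k)) = Y i := by
          apply hYp
          rw [Nat.add_mod_mod]
          have : (t : ℕ) + ((i : ℕ) + 2 * k - t) = i + 2 * k := by omega
          rw [this, Nat.add_mod_right]
        rw [h1]
        simp only [hY]
        congr 1
        exact Fin.ext (Nat.mod_eq_of_lt hi)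
    · -- impossible
      exfalso
      have h1 := hYi _ _ (ho heq)
      have h2 : (2 * k - 1) % (2 * k) = 1 % (2 * k) :=
        Nat.ModEq.add_left_cancel' (n := 2 * k) (t : ℕ) h1
      rw [Nat.mod_eq_of_lt (by omega), Nat.mod_eq_of_lt (by omega)] at h2
      omega
    · -- reflection
      set g : ℕ → V := fun n => Y (t + 2 * k - n) with hg
      have hsh : ∀ n, n ≤ 2 * k → ∀ m, m ≤ 2 * k → g n = g m → n % (2 * k) = m % (2 * k) := by
        intro n hn m hm h
        have h1 := hYi _ _ h
        have h2 : (t + 2 * k - n + (n + m)) % (2 * k) = (t + 2 * k - m + (n + m)) % (2 * k) :=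
          Nat.ModEq.add_right (n := 2 * k) (n + m) h1
        have e1 : (t : ℕ) + 2 * k - n + (n + m) = (t + 2 * k) + m := by omega
        have e2 : (t : ℕ) + 2 * k - m + (n + m) = (t + 2 * k) + n := by omega
        rw [e1, e2] at h2
        exact (Nat.ModEq.add_left_cancel' (n := 2 * k) ((t : ℕ) + 2 * k) h2).symm
      refine ⟨(t, false, (g 0, g 1, Lm g (2 * k - 2))), ?_, ?_⟩
      · rw [mem_product, mem_product]
        refine ⟨mem_univ _, mem_univ _, ?_⟩
        have hg0 : g 0 = Y t := by
          apply hYp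
          rw [Nat.sub_zero, Nat.add_mod_right]
        apply mem_Cyc_Lm hk
        · intro m n hm hn h
          have h1 := hsh m (by omega) n (by omega) h
          rwa [Nat.mod_eq_of_lt hm, Nat.mod_eq_of_lt hn] at h1
        · intro n hn
          have h1 := (hYa (t + 2 * k - (n + 1))).symm
          have e1 : (t : ℕ) + 2 * k - (n + 1) + 1 = t + 2 * k - n := by omega
          rw [e1] at h1
          exact h1
        · have h1 := hYa t
          have h2 : Y (t + 1) = g (2 * k - 1) := by
            apply hYp
            have : (t : ℕ) + 2 * k - (2 * k - 1) = t + 1 := by omega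
            rw [this]
          rw [h2] at h1
          rw [hg0]
          exact h1
        · intro n h1 h2
          rw [hg0]
          apply hmax
          intro h
          have h3 : g n = g 0 := by
            apply hYp
            rw [h, Nat.sub_zero, Nat.add_mod_right, Nat.mod_eq_of_lt htlt]
          have h4 := hsh n (by omega) 0 (by omega) h3
          rw [Nat.mod_eq_of_lt h2, Nat.zero_mod] at h4
          omega
        · have h1 : g (2 * k - 1) = Y (t + 1) := by
            apply hYp
            have : (t : ℕ) + 2 * k - (2 * k - 1) = t + 1 := by omega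
            rw [this]
          have h2 : g 1 = Y (t + (2 * k - 1)) := by
            apply hYp
            have : (t : ℕ) + 2 * k - 1 = t + (2 * k - 1) := by omega
            rw [this]
          rw [h1, h2]
          exact hgt
      · funext i
        rw [Fc_eq hk]
        have hi := i.2
        simp only [Bool.false_eq_true, if_false, hg]
        have h1 : Y (t + 2 * k - ((t : ℕ) + 2 * k - i) % (2 * k)) = Y i := by
          apply hYp
          have h2 : ((t : ℕ) + 2 * k - i) % (2 * k) < 2 * k := Nat.mod_lt _ hk0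
          have h3 := Nat.div_add_mod ((t : ℕ) + 2 * k - i) (2 * k)
          set r := ((t : ℕ) + 2 * k - i) % (2 * k) with hr
          set d := ((t : ℕ) + 2 * k - i) / (2 * k) with hd'
          have h4 : (t : ℕ) + 2 * k - r = i + 2 * k * d := by omega
          rw [h4, Nat.add_mul_mod_self_left]
        rw [h1]
        simp only [hY]
        congr 1
        exact Fin.ext (Nat.mod_eq_of_lt hi)
  calc A.card ≤ _ := card_le_card hsub
    _ ≤ ((univ : Finset (Fin (2 * k))) ×ˢ (univ : Finset Bool) ×ˢ Cyc H o k).card :=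
        card_image_le
    _ = 4 * k * (Cyc H o k).card := by
        rw [card_product, card_product, card_univ, card_univ, Fintype.card_fin,
          Fintype.card_bool]
        ring

end Vale.Agent.P050.Opt.H15
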