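import Vale.Agent.P050.O.H300.Defs
import Vale.Agent.P050.R2.H15.Cnt

set_option linter.all false

/-!
Dense targets, optimal order, C3/C4: shapes by positions.

The vertices of a shape `(a, L, B, S, b)` with `j` steps are listed in `L ++ [a]` (last vertex of
the path first); the position function is `pz a L : Fin (j + 1) → V`.  The pattern of the shape is
`(B, S, b)` with the vertices replaced by their positions.
-/

open Finset

namespace Vale.Agent.P050.Opt.H15

open Vale.Agent.P050 Vale.Agent.P050.Dense Vale.Agent.P050.Opt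

variable {V : Type*} [Fintype V] [DecidableEq V]

/-! ### lists -/

theorem mem_vs {a : V} {L : List V} {x : V} : x ∈ vs a L ↔ x ∈ L ++ [a] := by
  simp [vs, or_comm]

theorem Wk_length {H : SimpleGraph V} [DecidableRel H.Adj] {a : V} {Λ : Finset V} :
    ∀ {j : ℕ} {L : List V}, L ∈ Wk H a Λ j → L.length = j
  | 0, L, h => by
    have : L = [] := by simpa [Wk] using h
    rw [this]; rfl
  | j + 1, L, h => by
    simp only [Wk, mem_biUnion, mem_image] at h
    obtain ⟨L', h', w, -, rfl⟩ := h
    rw [List.length_cons, Wk_length h']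

/-- the position function of the path `(a, L)` -/
def pz (a : V) (L : List V) (j : ℕ) (i : Fin (j + 1)) : V := (L ++ [a]).getD i a

theorem pz_eq {a : V} {L : List V} {j : ℕ} (hL : L.length = j) (i : Fin (j + 1)) :
    pz a L j i = (L ++ [a])[(i : ℕ)]'(by have := i.2; simp [hL]; omega) := by
  unfold pz
  rw [List.getD_eq_getElem]

theorem pz_inj {a : V} {L : List V} {j : ℕ} (hL : L.length = j) (hnd : (L ++ [a]).Nodup) :
    Function.Injective (pz a L j) := by
  intro i i' h
  rw [pz_eq hL, pz_eq hL] at h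
  have := (List.Nodup.getElem_inj_iff hnd).1 h
  exact Fin.ext this

theorem pz_last {a : V} {L : List V} {j : ℕ} (hL : L.length = j) :
    pz a L j (Fin.last j) = a := by
  rw [pz_eq hL]
  simp [← hL]

theorem pz_zero {a : V} {L : List V} {j : ℕ} (hL : L.length = j) :
    pz a L j 0 = hd a L := by
  rw [pz_eq hL]
  cases L with
  | nil => rfl
  | cons w L => rfl

theorem ofFn_pz {a : V} {L : List V} {j : ℕ} (hL : L.length = j) :
    List.ofFn (pz a L j) = L ++ [a] := by
  apply List.ext_getElem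
  · simp [hL]
  · intro n h1 h2
    rw [List.getElem_ofFn, pz_eq hL]

/-- the position of a vertex of the path -/
def ix (a : V) (L : List V) (j : ℕ) (y : V) : Fin (j + 1) := Fin.ofNat (j + 1) ((L ++ [a]).idxOf y)

theorem ix_val {a : V} {L : List V} {j : ℕ} (hL : L.length = j) {y : V} (hy : y ∈ L ++ [a]) :
    ((ix a L j y : Fin (j + 1)) : ℕ) = (L ++ [a]).idxOf y := by
  have h1 : (L ++ [a]).idxOf y < (L ++ [a]).length := List.idxOf_lt_length_of_mem hy
  have h2 : (L ++ [a]).length = j + 1 := by simp [hL]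
  unfold ix
  rw [Fin.val_ofNat]
  exact Nat.mod_eq_of_lt (h2 ▸ h1)

theorem pz_ix {a : V} {L : List V} {j : ℕ} (hL : L.length = j) {y : V} (hy : y ∈ L ++ [a]) :
    pz a L j (ix a L j y) = y := by
  rw [pz_eq hL]
  simp only [ix_val hL hy]
  exact List.getElem_idxOf _

theorem ix_pz {a : V} {L : List V} {j : ℕ} (hL : L.length = j) (hnd : (L ++ [a]).Nodup)
    (i : Fin (j + 1)) : ix a L j (pz a L j i) = i := by
  apply pz_inj hL hnd
  rw [pz_ix hL]
  rw [pz_eq hL]
  exact List.getElem_mem _

/-- consecutive vertices by positions -/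
theorem cons_iff {a : V} : ∀ {L : List V} {x y : V}, Cons a L x y ↔
    ∃ i : ℕ, ∃ h : i + 1 < (L ++ [a]).length, (L ++ [a])[i] = x ∧ (L ++ [a])[i + 1] = y
  | [], x, y => by
    constructor
    · exact fun h => h.elim
    · rintro ⟨i, h, -⟩
      simp at h
  | w :: L, x, y => by
    constructor
    · rintro (⟨rfl, rfl⟩ | h)
      · refine ⟨0, by simp, by simp, ?_⟩
        cases L with
        | nil => simp [hd]
        | cons w' L => simp [hd]
      · obtain ⟨i, hi, h1, h2⟩ := cons_iff.1 h
        refine ⟨i + 1, by simp at hi ⊢; omega, ?_, ?_⟩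
        · simpa using h1
        · simpa using h2
    · rintro ⟨i, hi, h1, h2⟩
      cases i with
      | zero =>
        left
        refine ⟨by simpa using h1.symm, ?_⟩
        cases L with
        | nil => simpa [hd] using h2.symm
        | cons w' L => simpa [hd] using h2.symm
      | succ i =>
        right
        rw [cons_iff]
        refine ⟨i, by simp at hi ⊢; omega, ?_, ?_⟩
        · simpa using h1
        · simpa using h2

theorem cons_pz {a : V} {L : List V} {j : ℕ} (hL : L.length = j) (i : Fin (j + 1))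
    (i' : Fin (j + 1)) (h : (i' : ℕ) = i + 1) : Cons a L (pz a L j i) (pz a L j i') := by
  rw [cons_iff]
  have h2 : (L ++ [a]).length = j + 1 := by simp [hL]
  refine ⟨i, by rw [h2, ← h]; exact i'.2, ?_, ?_⟩
  · rw [pz_eq hL]
  · rw [pz_eq hL]
    congr 1
    exact h.symm

theorem cons_ix {a : V} {L : List V} {j : ℕ} (hL : L.length = j) (hnd : (L ++ [a]).Nodup)
    {x y : V} (h : Cons a L x y) : x ∈ L ++ [a] ∧ y ∈ L ++ [a] ∧
      ((ix a L j y : Fin (j + 1)) : ℕ) = (ix a L j x : Fin (j + 1)) + 1 := by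
  obtain ⟨i, hi, rfl, rfl⟩ := cons_iff.1 h
  refine ⟨List.getElem_mem _, List.getElem_mem _, ?_⟩
  rw [ix_val hL (List.getElem_mem _), ix_val hL (List.getElem_mem _),
    List.Nodup.idxOf_getElem hnd, List.Nodup.idxOf_getElem hnd]

/-! ### patterns -/

/-- patterns of shapes with `j` steps -/
abbrev Ptn (j : ℕ) : Type := Option (Option (Fin (j + 1))) × Finset (Fin (j + 1)) × Bool

theorem card_Ptn (j : ℕ) : Fintype.card (Ptn j) = (j + 3) * 2 ^ (j + 2) := by
  simp only [Fintype.card_prod, Fintype.card_option, Fintype.card_fin, Fintype.card_finset,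
    Fintype.card_bool]
  ring

/-- the pattern of a shape -/
def ptn (j : ℕ) (q : V × List V × Option (Option V) × Finset V × Bool) : Ptn j :=
  (q.2.2.1.map (Option.map (ix q.1 q.2.1 j)),
    univ.filter (fun i => pz q.1 q.2.1 j i ∈ q.2.2.2.1), q.2.2.2.2)

/-- the graph of a pattern -/
def PG (j : ℕ) (π : Ptn j) : SimpleGraph (Fin (j + 1)) :=
  SimpleGraph.fromRel fun i i' => (i' : ℕ) = i + 1 ∨ (i = Fin.last j ∧ π.1 = some (some i')) ∨
    (i ∈ π.2.1 ∧ i' = 0)

/-- the graph of a pattern contains the path -/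
theorem PG_connected (j : ℕ) (π : Ptn j) : (PG j π).Connected := by
  have key : ∀ n : ℕ, ∀ h : n < j + 1, (PG j π).Reachable 0 ⟨n, h⟩ := by
    intro n
    induction n with
    | zero => intro h; exact SimpleGraph.Reachable.refl _
    | succ n ih =>
      intro h
      refine (ih (by omega)).trans (SimpleGraph.Adj.reachable ?_)
      rw [PG, SimpleGraph.fromRel_adj]
      refine ⟨?_, Or.inl (Or.inl rfl)⟩
      intro h'
      have := congrArg Fin.val h'
      simp at this
  haveI : Nonempty (Fin (j + 1)) := ⟨0⟩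
  refine SimpleGraph.Connected.mk ?_
  intro x y
  exact (key x.1 x.2).symm.trans (key y.1 y.2)

variable {H : SimpleGraph V} [DecidableRel H.Adj]

theorem mem_pv {a : V} {L : List V} {x : V} (h : x ∈ pv a L) : x ∈ L ++ [a] := by
  cases L with
  | nil => simp [pv] at h
  | cons w L =>
    rw [pv, mem_vs] at h
    exact List.mem_append.2 ((List.mem_append.1 h).imp (List.mem_cons_of_mem _) id)

theorem mem_pv_tail {a : V} {L : List V} {x : V} (h : x ∈ pv a L.tail) : x ∈ L ++ [a] := by
  have := mem_pv h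
  exact List.mem_append.2 ((List.mem_append.1 this).imp List.mem_of_mem_tail id)

/-- the graph of a shape by positions -/
theorem FG_to_PG {j : ℕ} {q : V × List V × Option (Option V) × Finset V × Bool}
    (hL : q.2.1.length = j) (hs : Shape H q.1 q.2.1 q.2.2.1 q.2.2.2.1 q.2.2.2.2) {x y : V}
    (h : (FG q.1 q.2.1 q.2.2.1 q.2.2.2.1).Adj x y) :
    x ∈ q.2.1 ++ [q.1] ∧ y ∈ q.2.1 ++ [q.1] ∧
      (PG j (ptn j q)).Adj (ix q.1 q.2.1 j x) (ix q.1 q.2.1 j y) := by
  obtain ⟨a, L, B, S, b⟩ := q
  simp only at hL hs h ⊢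
  have hhd : hd a L ∈ L ++ [a] := by
    rw [← pz_zero hL, pz_eq hL]
    exact List.getElem_mem _
  have haL : a ∈ L ++ [a] := by simp
  -- one direction of the relation
  have key : ∀ x y : V, (Cons a L x y ∨ (x = a ∧ B = some (some y)) ∨ (x ∈ S ∧ y = hd a L)) →
      x ∈ L ++ [a] ∧ y ∈ L ++ [a] ∧
        (((ix a L j y : Fin (j + 1)) : ℕ) = (ix a L j x : Fin (j + 1)) + 1 ∨
        (ix a L j x = Fin.last j ∧ (ptn j (a, L, B, S, b)).1 = some (some (ix a L j y))) ∨
        (ix a L j x ∈ (ptn j (a, L, B, S, b)).2.1 ∧ ix a L j y = 0)) := by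
    intro x y h0
    rcases h0 with h0 | ⟨hxa, h0⟩ | ⟨h0, hyh⟩
    · obtain ⟨h1, h2, h3⟩ := cons_ix hL hs.nd h0
      exact ⟨h1, h2, Or.inl h3⟩
    · rw [hxa]
      have hy := (hs.aB y h0).1
      have hyL : y ∈ L ++ [a] :=
        List.mem_append_left _ (List.mem_of_mem_tail (List.mem_of_mem_dropLast hy))
      refine ⟨haL, hyL, Or.inr (Or.inl ⟨?_, ?_⟩)⟩
      · apply pz_inj hL hs.nd
        rw [pz_ix hL haL, pz_last hL]
      · simp only [ptn, h0, Option.map_some]
    · rw [hyh]
      have hx := mem_pv_tail (hs.sS h0)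
      refine ⟨hx, hhd, Or.inr (Or.inr ⟨?_, ?_⟩)⟩
      · simp only [ptn, mem_filter, mem_univ, true_and]
        rw [pz_ix hL hx]
        exact h0
      · apply pz_inj hL hs.nd
        rw [pz_ix hL hhd, pz_zero hL]
  rw [FG, SimpleGraph.fromRel_adj] at h
  obtain ⟨hne, h⟩ := h
  have hmem : x ∈ L ++ [a] ∧ y ∈ L ++ [a] := by
    rcases h with h | h
    · exact ⟨(key x y h).1, (key x y h).2.1⟩
    · exact ⟨(key y x h).2.1, (key y x h).1⟩
  refine ⟨hmem.1, hmem.2, ?_⟩
  rw [PG, SimpleGraph.fromRel_adj]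
  refine ⟨?_, ?_⟩
  · intro h'
    apply hne
    rw [← pz_ix hL hmem.1, ← pz_ix hL hmem.2, h']
  · rcases h with h | h
    · exact Or.inl (key x y h).2.2
    · exact Or.inr (key y x h).2.2

/-- the position function of a shape is a homomorphism into `H` -/
theorem PG_hom {j : ℕ} {q : V × List V × Option (Option V) × Finset V × Bool}
    (hL : q.2.1.length = j) (hs : Shape H q.1 q.2.1 q.2.2.1 q.2.2.2.1 q.2.2.2.2)
    {i i' : Fin (j + 1)} (h : (PG j (ptn j q)).Adj i i') :
    H.Adj (pz q.1 q.2.1 j i) (pz q.1 q.2.1 j i') := by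
  obtain ⟨a, L, B, S, b⟩ := q
  simp only at hL hs ⊢
  have key : ∀ i i' : Fin (j + 1), ((i' : ℕ) = i + 1 ∨
      (i = Fin.last j ∧ (ptn j (a, L, B, S, b)).1 = some (some i')) ∨
      (i ∈ (ptn j (a, L, B, S, b)).2.1 ∧ i' = 0)) →
      H.Adj (pz a L j i) (pz a L j i') := by
    intro i i' h
    rcases h with h | ⟨rfl, h⟩ | ⟨h, rfl⟩
    · exact hs.path _ _ (cons_pz hL i i' h)
    · simp only [ptn, Option.map_eq_some_iff] at h
      obtain ⟨B', hB', c, rfl, rfl⟩ := h
      have hc := hs.aB c hB'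
      have hcL : c ∈ L ++ [a] :=
        List.mem_append_left _ (List.mem_of_mem_tail (List.mem_of_mem_dropLast hc.1))
      rw [pz_last hL, pz_ix hL hcL]
      exact hc.2
    · simp only [ptn, mem_filter, mem_univ, true_and] at h
      rw [pz_zero hL]
      exact hs.aS _ h
  rw [PG, SimpleGraph.fromRel_adj] at h
  rcases h.2 with h | h
  · exact key i i' h
  · exact (key i' i h).symm

/-- a shape is determined by its pattern and its position function -/
theorem shape_inj {j : ℕ} {q q' : V × List V × Option (Option V) × Finset V × Bool}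
    (hL : q.2.1.length = j) (hs : Shape H q.1 q.2.1 q.2.2.1 q.2.2.2.1 q.2.2.2.2)
    (hL' : q'.2.1.length = j) (hs' : Shape H q'.1 q'.2.1 q'.2.2.1 q'.2.2.2.1 q'.2.2.2.2)
    (hp : ptn j q = ptn j q') (hz : pz q.1 q.2.1 j = pz q'.1 q'.2.1 j) : q = q' := by
  obtain ⟨a, L, B, S, b⟩ := q
  obtain ⟨a', L', B', S', b'⟩ := q'
  simp only at hL hs hL' hs' hz
  have h1 : L ++ [a] = L' ++ [a'] := by rw [← ofFn_pz hL, ← ofFn_pz hL', hz]
  obtain ⟨rfl, h2⟩ := List.append_inj h1 (by rw [hL, hL'])
  have h3 : a = a' := by simpa using h2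
  subst h3
  simp only [ptn, Prod.mk.injEq] at hp
  obtain ⟨hB, hS, hb⟩ := hp
  have hBS : ∀ B : Option (Option V), ∀ S : Finset V, ∀ b : Bool, Shape H a L B S b →
      B = (B.map (Option.map (ix a L j))).map (Option.map (pz a L j)) ∧
      S = (univ.filter (fun i => pz a L j i ∈ S)).image (pz a L j) := by
    intro B S b hs
    constructor
    · rcases B with _ | _ | c
      · rfl
      · rfl
      · have hc := (hs.aB c rfl).1
        have hcL : c ∈ L ++ [a] :=
          List.mem_append_left _ (List.mem_of_mem_tail (List.mem_of_mem_dropLast hc))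
        simp [pz_ix hL hcL]
    · ext x
      simp only [mem_image, mem_filter, mem_univ, true_and]
      constructor
      · intro hx
        have hxL := mem_pv_tail (hs.sS hx)
        exact ⟨ix a L j x, by rw [pz_ix hL hxL]; exact hx, pz_ix hL hxL⟩
      · rintro ⟨i, hi, rfl⟩
        exact hi
  obtain ⟨e1, e2⟩ := hBS B S b hs
  obtain ⟨e3, e4⟩ := hBS B' S' b' hs'
  rw [e1, e2, hB, hS, hb, ← e3, ← e4]

end Vale.Agent.P050.Opt.H15
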