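import Vale.Agent.P050.TDefs

set_option linter.all false

/-!
Isolated vertices do not change the homomorphism density.
-/

namespace Vale.Agent.P050.Opt.H15

open Vale.Agent.P050

/-- a homomorphism is one on the support together with arbitrary values elsewhere -/
noncomputable def homEquiv {V Ω : Type*} (H : SimpleGraph V) (G : SimpleGraph Ω) :
    (H →g G) ≃ ((H.induce H.support →g G) × ({v : V // v ∉ H.support} → Ω)) := by
  classical
  refine
  { toFun := fun f => (⟨fun v => f v.1, fun {a b} hab => f.map_rel hab⟩, fun v => f v.1)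
    invFun := fun g => ⟨fun v => if hv : v ∈ H.support then g.1 ⟨v, hv⟩ else g.2 ⟨v, hv⟩, ?_⟩
    left_inv := ?_
    right_inv := ?_ }
  · intro a b hab
    have ha : a ∈ H.support := ⟨b, hab⟩
    have hb : b ∈ H.support := ⟨a, hab.symm⟩
    show G.Adj (if hv : a ∈ H.support then g.1 ⟨a, hv⟩ else g.2 ⟨a, hv⟩)
      (if hv : b ∈ H.support then g.1 ⟨b, hv⟩ else g.2 ⟨b, hv⟩)
    rw [dif_pos ha, dif_pos hb]
    exact g.1.map_rel (show (H.induce H.support).Adj ⟨a, ha⟩ ⟨b, hb⟩ from hab)
  · intro f
    refine RelHom.ext fun v => ?_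
    show (if hv : v ∈ H.support then f v else f v) = f v
    split_ifs <;> rfl
  · rintro ⟨g, h⟩
    refine Prod.ext (RelHom.ext fun v => ?_) (funext fun v => ?_)
    · show (if hv : v.1 ∈ H.support then g ⟨v.1, hv⟩ else h ⟨v.1, hv⟩) = g v
      rw [dif_pos v.2]
    · show (if hv : v.1 ∈ H.support then g ⟨v.1, hv⟩ else h ⟨v.1, hv⟩) = h v
      rw [dif_neg v.2]

theorem homDensity_support {V Ω : Type} [Finite V] [Finite Ω] [Nonempty Ω] (H : SimpleGraph V)
    (G : SimpleGraph Ω) : homDensity H G = homDensity (H.induce H.support) G := by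
  classical
  haveI := Fintype.ofFinite V
  haveI := Fintype.ofFinite Ω
  have h1 : Nat.card (H →g G) = Nat.card (H.induce H.support →g G) *
      Nat.card Ω ^ Nat.card {v : V // v ∉ H.support} := by
    rw [Nat.card_congr (homEquiv H G), Nat.card_prod, Nat.card_fun]
  have h2 : Nat.card V = Nat.card H.support + Nat.card {v : V // v ∉ H.support} := by
    rw [← Nat.card_sum]
    exact Nat.card_congr (Equiv.sumCompl (· ∈ H.support)).symm
  have h3 : (Nat.card Ω : ℝ) ≠ 0 := by exact_mod_cast Nat.card_pos.ne'
  unfold homDensity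
  rw [h1, h2, pow_add]
  push_cast
  rw [mul_div_mul_right _ _ (pow_ne_zero _ h3)]

theorem card_edgeSet_support {V : Type} [Finite V] (H : SimpleGraph V) :
    Nat.card (H.induce H.support).edgeSet = Nat.card H.edgeSet := by
  classical
  haveI := Fintype.ofFinite V
  rw [Nat.card_eq_fintype_card, Nat.card_eq_fintype_card, ← SimpleGraph.edgeFinset_card,
    ← SimpleGraph.edgeFinset_card]
  exact SimpleGraph.card_edgeFinset_induce_support

theorem card_support_le {V : Type} [Finite V] (H : SimpleGraph V) :
    Nat.card H.support ≤ 2 * Nat.card H.edgeSet := by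
  classical
  haveI := Fintype.ofFinite V
  rw [Nat.card_eq_fintype_card, Nat.card_eq_fintype_card, ← SimpleGraph.edgeFinset_card,
    ← SimpleGraph.dart_card_eq_twice_card_edges]
  refine Fintype.card_le_of_injective
    (fun v : H.support => (⟨(v.1, v.2.choose), v.2.choose_spec⟩ : H.Dart)) ?_
  intro a b hab
  have := congrArg (fun d : H.Dart => d.fst) hab
  exact Subtype.ext this

/-- the graph without its isolated vertices has none -/
theorem exists_adj_induce_support {V : Type} (H : SimpleGraph V) (v : H.support) :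
    ∃ w, (H.induce H.support).Adj v w := by
  obtain ⟨v, w, hvw⟩ := v
  exact ⟨⟨w, v, hvw.symm⟩, hvw⟩

theorem isBipartite_induce {V : Type} {H : SimpleGraph V} (hH : H.IsBipartite) (s : Set V) :
    (H.induce s).IsBipartite := by
  obtain ⟨c⟩ := hH
  exact ⟨c.comp (SimpleGraph.Embedding.induce s).toHom⟩

theorem ncard_neighborSet_induce_le {V : Type} [Finite V] (H : SimpleGraph V) (s : Set V) (v : s) :
    ((H.induce s).neighborSet v).ncard ≤ (H.neighborSet v.1).ncard := by
  rw [← Set.ncard_image_of_injective _ Subtype.val_injective]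
  refine Set.ncard_le_ncard ?_ (Set.toFinite _)
  rintro _ ⟨w, hw, rfl⟩
  exact hw

end Vale.Agent.P050.Opt.H15
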